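import Vale.Agent.P207.N3.Geo.Inst

/-!
# P207, line N3: constant curvature from the structures of the universal cover
-/

open scoped Manifold ContDiff ENNReal Topology Matrix
open Bundle MeasureTheory Set Filter

set_option maxSynthPendingDepth 3
set_option linter.unusedSectionVars false

noncomputable section

namespace Vale.Agent.P207.N3

open Vale.Agent.P255 (RMetric Npc)
open Vale.Agent.P207.Q Vale.Agent.P207.Q.H130 Vale.Agent.P207.Q.H892
open Vale.Agent.P207F (ConstCurvature)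
open H465 (Deck PB Mt toMt ofMt Xt homeoMt)
open H156 (geoA Dk fl co jA)
open H607 (geoInL rieA)

variable {M : Type} [TopologicalSpace M] [ChartedSpace (EV 3) M] [IsManifold 𝓘(ℝ, EV 3) ∞ M]
  [CompactSpace M] [T2Space M] [ConnectedSpace M] {g : RMetric (EV 3) M}

/-- The leaf structures of the universal cover with base point `m`, for the Riccati solution `D`:
everything over them which does not involve measures. -/
structure Full [Nonempty (Fr g)] (hN : NegCurvature g) (D : MDat g ((horFlows g).Φ 0))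
    (m : M) where
  I : (geoA hN m).In3 (jA (npc_of_neg hN) m)
  r₀ : ℝ
  t₁ : ℝ
  χ : ℝ
  hc : H76.Geo.Cst I r₀ t₁ χ
  C : ∀ o, H618.Conn (geoInL hc (rieA hN m) o) (ukL hc o D).U
  X : ∀ o, GeoX (geoInL hc (rieA hN m) o)

/-- distances of the frames -/
theorem dist_frm_le {h : Npc (mt g)} {m : M} [Nonempty (Fr g)] (x y : Xt g h m) :
    dist (frm x) (frm y) ≤ 1 * dist x y := by
  rw [one_mul]
  exact H465.PB.dist_f_le x y

theorem Full.exists_rdat [Nonempty (Fr g)] [MeasurableSpace M] [BorelSpace M]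
    {hN : NegCurvature g} {D : MDat g ((horFlows g).Φ 0)} {m₀ : M} (F : Full hN D m₀)
    {φ : ℝ → UT g → UT g} (hφ : IsGeoFlow g φ) {μ : Measure M} {m : Measure (UT g)}
    (hμ : IsRiemVol g μ) (hm : IsLiouville g μ m)
    (heq : ksEntropy m (φ 1) = topEntropy (φ 1)) (o : Mt (sys g (npc_of_neg hN)) m₀)
    {ν₀ : Measure ((geoA hN m₀).Bnd o)}
    (hAC : H732.HopfAC (F.hc.leaf o) φ (fun x => (frm x).ut 0) m ν₀) :
    Nonempty (RDat D (topEntropy (φ 1)).toReal) :=
  (over_leaf F.hc o).exists_RDat ((horFlows g).hor 0) ((horFlows g).cont 0) D hN hφ hμ hm heq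
    (H732.hold_t_over ((horFlows g).hor 0) D dist_frm_le)
    (H732.hold_t_flip_over ((horFlows g).hor 0) D (over_leaf F.hc o) dist_frm_le) hAC

/-- **the top, from the structures of the universal cover** -/
theorem core_of_full [MeasurableSpace M] [BorelSpace M]
    (hN : NegCurvature g) {φ : ℝ → UT g → UT g} (hφ : IsGeoFlow g φ) {μ : Measure M}
    {m : Measure (UT g)} (hμ : IsRiemVol g μ) (hm : IsLiouville g μ m)
    (heq : ksEntropy m (φ 1) = topEntropy (φ 1))
    (hF : ∀ [Nonempty (Fr g)] (D : MDat g ((horFlows g).Φ 0)) (m₀ : M),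
      Nonempty (Full hN D m₀))
    (hAC : ∀ [Nonempty (Fr g)] (D : MDat g ((horFlows g).Φ 0)) (m₀ : M) (F : Full hN D m₀)
      (o : Mt (sys g (npc_of_neg hN)) m₀), ∃ ν₀ : Measure ((geoA hN m₀).Bnd o),
        H732.HopfAC (F.hc.leaf o) φ (fun x => (frm x).ut 0) m ν₀)
    (hO : ∀ [Nonempty (Fr g)] (D : MDat g ((horFlows g).Φ 0)) (m₀ : M) (F : Full hN D m₀)
      (o : Mt (sys g (npc_of_neg hN)) m₀) (S : Suite (F.hc.leaf o) (EV 3)),
        Nonempty (H662.CaseI (F.hc.leaf o) S.A)) :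
    ∃ κ, ConstCurvature g κ := by
  refine core_of_bounds hN hφ hμ hm heq (fun D => ?_) (fun D R p => ?_)
  · obtain ⟨f⟩ := ‹Nonempty (Fr g)›
    obtain ⟨F⟩ := hF D f.pt
    obtain ⟨ν₀, h⟩ := hAC D f.pt F (toMt (sys g (npc_of_neg hN)) f.pt 0)
    exact F.exists_rdat hφ hμ hm heq _ h
  · obtain ⟨F⟩ := hF D p
    have hh := (exists_psi_N3 ((horFlows g).hor 0) D hN hφ hμ hm heq).1
    obtain ⟨S⟩ := exists_suite F.hc (toMt (sys g (npc_of_neg hN)) p 0) (F.C _) hh R (F.X _)
      (hO D p F _)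
    have h1 := S.bound nuBound
    have h2 : (sys g (npc_of_neg hN)).e p (ofMt _ _ (toMt (sys g (npc_of_neg hN)) p 0)) = p :=
      (sys g (npc_of_neg hN)).zero p
    rwa [h2] at h1

end Vale.Agent.P207.N3
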