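import Vale.Agent.P207.N3.Geo.UR
import Vale.Agent.P207.Q.SolFr
import Vale.Agent.P207.Q.H129.JacFr
import Vale.Agent.P207.Q.H916.FlipK

/-!
# P207, line N3, rows R0 and R17: the Riccati data of `M`, the cocycle `log det (U + U^flip)`, and
the integrable solution of the cohomological equation
-/

open scoped Manifold ContDiff ENNReal Topology Matrix
open Bundle MeasureTheory Set Filter

set_option maxSynthPendingDepth 3
set_option linter.unusedSectionVars false

noncomputable section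

namespace Vale.Agent.P207.N3

open Vale.Agent.P255 (RMetric)
open Vale.Agent.P207.Q Vale.Agent.P207.Q.H130
open Vale.Agent.P207.Q.H892 (Stab)

variable {M : Type} [TopologicalSpace M] [ChartedSpace (EV 3) M] [IsManifold 𝓘(ℝ, EV 3) ∞ M]
  [CompactSpace M] [T2Space M] {g : RMetric (EV 3) M}

section

variable [Nonempty (Fr g)]

/-- **R0** -/
theorem exists_MDat (hN : NegCurvature g) {φ : ℝ → UT g → UT g} (hφ : IsGeoFlow g φ) :
    Nonempty (MDat g ((horFlows g).Φ 0)) := by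
  obtain ⟨lam, Lam, U, hc, hU, hhi⟩ := exists_UR hN
  have hor := (horFlows g).hor 0
  obtain ⟨t, ht, -⟩ := hU.exists_t hor (fun i => hc.matrix_elem i i) hφ
  obtain ⟨S, hS⟩ := exists_desc (g := g) (⟨fun f => (U f + U (flipF f)).det,
    (hc.add (hc.comp continuous_flipF)).matrix_det⟩ : C(Fr g, ℝ))
    (fun A hA f => WD.det_inv (fun A hA f => hU.rot hor hA f) hA f)
  exact ⟨⟨lam, Lam, U, hc, hU, hhi, t, ht, S, hS⟩⟩

end

namespace MDat

variable {Φ : ℝ → Fr g → Fr g} (D : MDat g Φ)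

theorem symm (hΦ : IsHorFlow g (Pi.single 0 1) Φ) (f : Fr g) : (D.U f)ᵀ = D.U f :=
  D.ur.symm hΦ f

theorem lam_pos : 0 < D.lam := D.ur.pos

/-- the 2×2 determinant of a sum of two positive matrices is positive -/
theorem det_pos_of {A : Matrix (Fin 2) (Fin 2) ℝ} (hs : A 1 0 = A 0 1) {l : ℝ} (hl : 0 < l)
    (h : ∀ x : Fin 2 → ℝ, l * (x ⬝ᵥ x) ≤ x ⬝ᵥ (A *ᵥ x)) : l ^ 2 ≤ A.det := by
  have h1 : ∀ x y : ℝ, l * (x ^ 2 + y ^ 2) ≤ A 0 0 * x ^ 2 + 2 * A 0 1 * (x * y)
      + A 1 1 * y ^ 2 := by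
    intro x y
    have := h ![x, y]
    simp only [dotProduct, Matrix.mulVec, Fin.sum_univ_two, Matrix.cons_val_zero,
      Matrix.cons_val_one, hs] at this
    nlinarith
  rw [Matrix.det_fin_two, hs]
  have d1 : A 0 1 ^ 2 ≤ (A 0 0 - l) * (A 1 1 - l) := by
    have := discrim_le_zero (a := A 0 0 - l) (b := 2 * A 0 1) (c := A 1 1 - l) (fun x => by
      nlinarith [h1 x 1])
    unfold discrim at this
    nlinarith
  have e1 := h1 1 0
  have e2 := h1 0 1
  nlinarith

theorem S_ge (hΦ : IsHorFlow g (Pi.single 0 1) Φ) (f : Fr g) :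
    (2 * D.lam) ^ 2 ≤ D.S (f.ut 0) := by
  rw [D.S_eq]
  refine det_pos_of ?_ (by linarith [D.lam_pos]) fun x => ?_
  · have h1 : D.U f 1 0 = D.U f 0 1 := congrFun (congrFun (D.symm hΦ f) 0) 1
    have h2 : D.U (flipF f) 1 0 = D.U (flipF f) 0 1 :=
      congrFun (congrFun (D.symm hΦ (flipF f)) 0) 1
    rw [Matrix.add_apply, Matrix.add_apply, h1, h2]
  · rw [Matrix.add_mulVec, dotProduct_add]
    linarith [D.ur.lo f x, D.ur.lo (flipF f) x]

theorem S_pos (hΦ : IsHorFlow g (Pi.single 0 1) Φ) (f : Fr g) : 0 < D.S (f.ut 0) := by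
  have := D.S_ge hΦ f
  have h1 := D.lam_pos
  nlinarith

theorem flip_Φ (hΦ : IsHorFlow g (Pi.single 0 1) Φ) (t : ℝ) (f : Fr g) :
    flipF (Φ t f) = Φ (-t) (flipF f) := by
  have h1 := hΦ.rot hΦ.neg flipO flipM_zero (-t) f
  simp only [neg_neg] at h1
  exact h1.symm

theorem Km_flip (f : Fr g) : Km g (flipF f) = Km g f := by
  ext i j
  change -H545.Rf g (flipF f) i.succ 0 0 j.succ = -H545.Rf g f i.succ 0 0 j.succ
  rw [Rf_flip]
  fin_cases i <;> fin_cases j <;> simp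

/-- the flipped solution along the flow -/
theorem ric_flip (hΦ : IsHorFlow g (Pi.single 0 1) Φ) (f : Fr g) (r : ℝ) (i j : Fin 2) :
    HasDerivAt (fun s => D.U (flipF (Φ s f)) i j)
      ((D.U (flipF (Φ r f)) * D.U (flipF (Φ r f))) i j - Km g (Φ r f) i j) r := by
  have h1 := D.ur.ric (flipF f) (-r) i j
  have h2 := h1.scomp r (hasDerivAt_neg r)
  have h3 : (fun s => D.U (flipF (Φ s f)) i j) =
      (fun s => D.U (Φ s (flipF f)) i j) ∘ Neg.neg := by
    funext s
    simp only [Function.comp, flip_Φ hΦ]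
  rw [h3]
  refine h2.congr_deriv ?_
  rw [flip_Φ hΦ, ← Km_flip (Φ r f), flip_Φ hΦ]
  simp

/-- the derivative of `det (U + U^flip)` along the flow -/
theorem hasDerivAt_S (hΦ : IsHorFlow g (Pi.single 0 1) Φ) (f : Fr g) (r : ℝ) :
    HasDerivAt (fun s => D.S ((Φ s f).ut 0))
      (D.S ((Φ r f).ut 0) * ((D.t ((flipF (Φ r f)).ut 0)) - D.t ((Φ r f).ut 0))) r := by
  have hU := fun i j => D.ur.ric f r i j
  have hV := fun i j => D.ric_flip hΦ f r i j
  have e : (fun s => D.S ((Φ s f).ut 0)) = fun s =>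
      (D.U (Φ s f) 0 0 + D.U (flipF (Φ s f)) 0 0) * (D.U (Φ s f) 1 1 + D.U (flipF (Φ s f)) 1 1) -
      (D.U (Φ s f) 0 1 + D.U (flipF (Φ s f)) 0 1) * (D.U (Φ s f) 1 0 + D.U (flipF (Φ s f)) 1 0) := by
    funext s
    rw [D.S_eq, Matrix.det_fin_two]
    rfl
  rw [e]
  have h00 := (hU 0 0).fun_add (hV 0 0)
  have h11 := (hU 1 1).fun_add (hV 1 1)
  have h01 := (hU 0 1).fun_add (hV 0 1)
  have h10 := (hU 1 0).fun_add (hV 1 0)
  have hs1 : D.U (Φ r f) 1 0 = D.U (Φ r f) 0 1 := congrFun (congrFun (D.symm hΦ (Φ r f)) 0) 1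
  have hs2 : D.U (flipF (Φ r f)) 1 0 = D.U (flipF (Φ r f)) 0 1 :=
    congrFun (congrFun (D.symm hΦ (flipF (Φ r f))) 0) 1
  refine ((h00.fun_mul h11).fun_sub (h01.fun_mul h10)).congr_deriv ?_
  rw [D.S_eq, D.t_eq, D.t_eq, Matrix.det_fin_two]
  simp only [Matrix.trace, Matrix.diag, Fin.sum_univ_two, Matrix.mul_apply, Matrix.add_apply,
    hs1, hs2]
  ring

end MDat

/-! ### R18: normalisation -/

section Norm

/-- **R18**: the normalised solution, from a continuous solution and the density of an orbit -/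
theorem exists_RDat {Φ : ℝ → Fr g → Fr g} (hΦ : IsHorFlow g (Pi.single 0 1) Φ)
    (hcont : Continuous fun q : ℝ × Fr g => Φ q.1 q.2) (D : MDat g Φ) {h : ℝ}
    (hconst : ∀ F : C(UT g, ℝ), (∀ T (f : Fr g), F ((Φ T f).ut 0) = F (f.ut 0)) →
      ∃ c, ∀ v, F v = c) (r : C(UT g, ℝ))
    (hr : ∀ f T, r ((Φ T f).ut 0) - r (f.ut 0) =
      h * T - ∫ s in (0 : ℝ)..T, D.t ((Φ s f).ut 0)) :
    Nonempty (RDat D h) := by
  have hut : Continuous fun f : Fr g => f.ut 0 := Fr.continuous_ut 0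
  have hdt : ∀ f s, HasDerivAt (fun s => r ((Φ s f).ut 0)) (h - D.t ((Φ s f).ut 0)) s := by
    intro f s
    have hc : Continuous fun s => D.t ((Φ s f).ut 0) :=
      D.t.continuous.comp (hut.comp (hcont.comp (Continuous.prodMk_left f)))
    have h1 : (fun s => r ((Φ s f).ut 0)) =
        fun s => r (f.ut 0) + (h * s - ∫ u in (0 : ℝ)..s, D.t ((Φ u f).ut 0)) := by
      funext T
      rw [← hr f T]
      ring
    rw [h1]
    have h2 : HasDerivAt (fun s => ∫ u in (0 : ℝ)..s, D.t ((Φ u f).ut 0))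
        (D.t ((Φ s f).ut 0)) s :=
      intervalIntegral.integral_hasDerivAt_right (hc.intervalIntegrable _ _)
        (hc.stronglyMeasurableAtFilter _ _) hc.continuousAt
    have h3 := ((hasDerivAt_id s).const_mul h).sub h2
    simpa using h3.const_add (r (f.ut 0))
  have hdf : ∀ f s, HasDerivAt (fun s => r ((flipF (Φ s f)).ut 0))
      (D.t ((flipF (Φ s f)).ut 0) - h) s := by
    intro f s
    have h1 := (hdt (flipF f) (-s)).scomp s (hasDerivAt_neg s)
    have h2 : (fun s => r ((flipF (Φ s f)).ut 0)) =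
        (fun s => r ((Φ s (flipF f)).ut 0)) ∘ Neg.neg := by
      funext u
      simp only [Function.comp, MDat.flip_Φ hΦ]
    rw [h2]
    refine h1.congr_deriv ?_
    rw [MDat.flip_Φ hΦ]
    simp
  have hdS : ∀ f s, HasDerivAt (fun s => Real.log (D.S ((Φ s f).ut 0)))
      (D.t ((flipF (Φ s f)).ut 0) - D.t ((Φ s f).ut 0)) s := by
    intro f s
    have h0 := D.S_pos hΦ (Φ s f)
    refine ((D.hasDerivAt_S hΦ f s).log h0.ne').congr_deriv ?_
    field_simp
  have hFc : Continuous fun f : Fr g =>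
      Real.log (D.S (f.ut 0)) - r (f.ut 0) - r ((flipF f).ut 0) := by
    refine (Continuous.sub (Continuous.log ?_ fun f => (D.S_pos hΦ f).ne') ?_).sub ?_
    · exact D.S.continuous.comp hut
    · exact r.continuous.comp hut
    · exact r.continuous.comp (hut.comp continuous_flipF)
  obtain ⟨F, hF⟩ := exists_desc (g := g) (⟨_, hFc⟩ : C(Fr g, ℝ)) (fun A hA f => by
    change Real.log (D.S ((Fr.rot A f).ut 0)) - r ((Fr.rot A f).ut 0) -
      r ((flipF (Fr.rot A f)).ut 0) = _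
    rw [WD.flipF_rot hA, H665.ut_rot hA, H665.ut_rot hA]
    rfl)
  have hF' : ∀ f : Fr g, F (f.ut 0) =
      Real.log (D.S (f.ut 0)) - r (f.ut 0) - r ((flipF f).ut 0) := hF
  obtain ⟨c, hc⟩ := hconst F (fun T f => by
    rw [hF', hF']
    have h1 : ∀ s, HasDerivAt (fun s => Real.log (D.S ((Φ s f).ut 0)) - r ((Φ s f).ut 0) -
        r ((flipF (Φ s f)).ut 0)) 0 s := fun s => by
      refine (((hdS f s).fun_sub (hdt f s)).fun_sub (hdf f s)).congr_deriv ?_
      ring
    have h2 := is_const_of_deriv_eq_zero (fun s => (h1 s).differentiableAt)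
      (fun s => (h1 s).deriv) T 0
    simp only [hΦ.zero] at h2
    exact h2)
  refine ⟨⟨r + ContinuousMap.const _ (c / 2), fun f T => ?_, fun f => ?_⟩⟩
  · rw [← hr f T]
    simp
  · have h1 := hF' f
    rw [hc] at h1
    have h2 : Real.log (D.S (f.ut 0)) = (r (f.ut 0) + c / 2) + (r ((flipF f).ut 0) + c / 2) := by
      linarith
    change D.S (f.ut 0) = Real.exp ((r (f.ut 0) + c / 2) + (r ((flipF f).ut 0) + c / 2))
    rw [← h2, Real.exp_log (D.S_pos hΦ f)]

end Norm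

end Vale.Agent.P207.N3
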