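import Vale.Agent.P207.N3.H908.Fiber
import Vale.Agent.P207.Q.H916.FlipFr
import Vale.Agent.P207.Q.H130.Desc
import Vale.Agent.P207.Q.FrSys3
import Vale.Agent.P207.C1.Psi
import Vale.Agent.P207.FDefs3

/-!
# P207, line N3: the interface between `Leaf` and the closed 3-manifold

* `Over g Φ L fr`: the frames `x : X` of the leaf structure `L` lie over the frames of `M`.
* `MDat`: the unstable Riccati solution on `M`, its trace `t` and `S = det (U + U^flip)`.
* `RDat`: the continuous solution `r` of `X r + tr U = h`, normalised by `S = e^{r + r^flip}`.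
-/

open scoped Manifold ContDiff ENNReal Topology Matrix
open Bundle MeasureTheory Set Filter

set_option maxSynthPendingDepth 3
set_option linter.unusedSectionVars false

noncomputable section

namespace Vale.Agent.P207.N3

open Vale.Agent.P255 (RMetric)
open Vale.Agent.P207.Q Vale.Agent.P207.Q.H130
open Vale.Agent.P207F (ConstCurvature)
open H908 (mo ext)

variable {M : Type} [TopologicalSpace M] [ChartedSpace (EV 3) M] [IsManifold 𝓘(ℝ, EV 3) ∞ M]
  [CompactSpace M] [T2Space M] {g : RMetric (EV 3) M}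

/-- The leaf structure `L` lies over the frame bundle of `M` (`Φ` is the frame flow of `M`). -/
structure Over {Γ X B : Type} [Group Γ] [MetricSpace X] [ProperSpace X] [MulAction Γ X]
    [IsIsometricSMul Γ X] [TopologicalSpace B] [CompactSpace B] [T2Space B] [MulAction Γ B]
    [ContinuousConstSMul Γ B] (Φ : ℝ → Fr g → Fr g) (L : Leaf Γ X B) (fr : X → Fr g) : Prop where
  cont : Continuous fr
  surj : Function.Surjective fr
  smul : ∀ (γ : Γ) x, fr (γ • x) = fr x
  fib : ∀ x y, fr x = fr y → ∃ γ : Γ, y = γ • x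
  flow : ∀ t x, fr (L.φ t x) = Φ t (fr x)
  rot : ∀ a x, fr (L.rot a x) = Fr.rot (mo (ext a)) (fr x)
  flip : ∀ x, fr (L.flip x) = flipF (fr x)

/-- The unstable Riccati solution of `M`. -/
structure MDat (g : RMetric (EV 3) M) (Φ : ℝ → Fr g → Fr g) where
  lam : ℝ
  Lam : ℝ
  U : Fr g → Matrix (Fin 2) (Fin 2) ℝ
  cont : Continuous U
  ur : IsUR Φ lam Lam U
  hi : ∀ f x, x ⬝ᵥ (U f *ᵥ x) ≤ Lam * (x ⬝ᵥ x)
  /-- the trace -/
  t : C(UT g, ℝ)
  t_eq : ∀ f : Fr g, t (f.ut 0) = (U f).trace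
  /-- `det (U + U^flip)` -/
  S : C(UT g, ℝ)
  S_eq : ∀ f : Fr g, S (f.ut 0) = (U f + U (flipF f)).det

/-- The continuous solution of the cohomological equation, normalised. -/
structure RDat {Φ : ℝ → Fr g → Fr g} (D : MDat g Φ) (h : ℝ) where
  r : C(UT g, ℝ)
  coc : ∀ f T, r ((Φ T f).ut 0) - r (f.ut 0) = h * T - ∫ s in (0 : ℝ)..T, D.t ((Φ s f).ut 0)
  norm : ∀ f : Fr g, D.S (f.ut 0) = Real.exp (r (f.ut 0) + r ((flipF f).ut 0))

end Vale.Agent.P207.N3
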