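import Vale.Agent.P207.N3.Geo.Core2
import Vale.Agent.P207.N3.Top.Final
import Vale.Agent.P207.Bridge

/-!
# P207, line N3: constant curvature from the equality of the entropies
-/

open scoped Manifold ContDiff ENNReal Topology Matrix
open Bundle MeasureTheory Set Filter

set_option maxSynthPendingDepth 3

noncomputable section

namespace Vale.Agent.P207.N3

open Vale.Agent.P255 (RMetric)
open Vale.Agent.P207F (ConstCurvature)

/-- **Core.** For a closed 3-manifold of negative curvature, equality of the Liouville entropy and
the topological entropy forces constant curvature. -/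
theorem core_N3 {M : Type} [TopologicalSpace M] [ChartedSpace (EV 3) M]
    [IsManifold 𝓘(ℝ, EV 3) ∞ M] [CompactSpace M] [T2Space M] [ConnectedSpace M]
    [MeasurableSpace M] [BorelSpace M] (g : RMetric (EV 3) M) (hN : P207F.NegCurvature g)
    (φ : ℝ → P207.UT g → P207.UT g) (μ : Measure M) (m : Measure (P207.UT g))
    (hφ : P207.IsGeoFlow g φ) (hμ : P207.IsRiemVol g μ) (hm : P207.IsLiouville g μ m)
    (heq : P207.ksEntropy m (φ 1) = P207.topEntropy (φ 1)) : ∃ κ, ConstCurvature g κ :=
  core_of_case (P207F.negCurvature_iff.1 hN) hφ hμ hm heq (fun _ _ _ _ S => caseI_of S)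

end Vale.Agent.P207.N3
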