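import Vale.Agent.P207.N3.Geo.Core
import Vale.Agent.P207.N3.H76.In3A
import Vale.Agent.P207.N3.H607.GX
import Vale.Agent.P207.N3.H618.Inst
import Vale.Agent.P207.N3.H863.HoldA

/-!
# P207, line N3: the structures of the universal cover exist
-/

open scoped Manifold ContDiff ENNReal Topology Matrix
open Bundle MeasureTheory Set Filter

set_option maxSynthPendingDepth 3
set_option linter.unusedSectionVars false

noncomputable section

namespace Vale.Agent.P207.N3

open Vale.Agent.P255 (RMetric Npc)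
open Vale.Agent.P207.Q Vale.Agent.P207.Q.H130 Vale.Agent.P207.Q.H892

variable {M : Type} [TopologicalSpace M] [ChartedSpace (EV 3) M] [IsManifold 𝓘(ℝ, EV 3) ∞ M]
  [CompactSpace M] [T2Space M] [ConnectedSpace M] {g : RMetric (EV 3) M}

/-- **the structures of the universal cover** -/
theorem exists_full [Nonempty (Fr g)] (hN : NegCurvature g) (D : MDat g ((horFlows g).Φ 0))
    (m₀ : M) : Nonempty (Full hN D m₀) := by
  let Dm : MDat g (H747.fl g) := D
  obtain ⟨ρ, hT⟩ := H747.exists_tubeR (g := g)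
  obtain ⟨ε, δ, gs, hg⟩ := H747.exists_slope_fr Dm hT
  obtain ⟨θ, hθ, hold⟩ := H863.hold_dirS hN m₀ Dm hT hg
  obtain ⟨r₀, t₁, χ, hc⟩ := (H76.in3A hN m₀ Dm hT hg hθ hold).exists_cst
  exact ⟨⟨H76.in3A hN m₀ Dm hT hg hθ hold, r₀, t₁, χ, hc,
    fun o => H618.connA hc D (H618.parA hN m₀ Dm hT hg) o,
    fun o => H607.geoXL hc (H607.rieA hN m₀) o⟩⟩

end Vale.Agent.P207.N3
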