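import Vale.Agent.P207.N3.Geo.Psi
import Vale.Agent.P207.N3.H732.Liv
import Vale.Agent.P207.N3.H76.Ext

/-!
# P207, line N3: functions on `X` and on `M`, and the data `RDat` from a leaf structure over `M`
-/

open scoped Manifold ContDiff ENNReal Topology Matrix
open Bundle MeasureTheory Set Filter

set_option maxSynthPendingDepth 3
set_option linter.unusedSectionVars false

noncomputable section

namespace Vale.Agent.P207.N3

open Vale.Agent.P255 (RMetric)
open Vale.Agent.P207.Q Vale.Agent.P207.Q.H130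
open Vale.Agent.P207.Q.H892 (Stab mem_Stab)
open H908 (mo ext mo_surjective)
open H732 (Factor HopfAC Hold exists_r invariant_const)

theorem ext_eq_ext (a : O2) : H76.ext a = ext a := by
  ext v i
  fin_cases i <;> rfl

theorem act_mo (R : O3) (v : E3) : Q.H892.act (mo R) v = R v := by
  ext i
  rw [H908.apply_eq]
  rfl

theorem mo_ext_mem (a : O2) : mo (ext a) ∈ Stab 3 := by
  rw [mem_Stab, act_mo]
  have h : (EuclideanSpace.single (0 : Fin 3) (1 : ℝ)) = H76.e0 := by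
    ext i
    fin_cases i <;> simp [H76.e0, H76.pk]
  rw [h, ← ext_eq_ext, H76.ext_e0]

theorem exists_mo_ext {A : Fr.On 3} (hA : A ∈ Stab 3) : ∃ a : O2, mo (ext a) = A := by
  obtain ⟨R, rfl⟩ := mo_surjective A
  rw [mem_Stab, act_mo] at hA
  have h : (EuclideanSpace.single (0 : Fin 3) (1 : ℝ)) = H76.e0 := by
    ext i
    fin_cases i <;> simp [H76.e0, H76.pk]
  rw [h] at hA
  obtain ⟨a, rfl⟩ := H76.exists_ext hA
  exact ⟨a, by rw [ext_eq_ext]⟩

variable {M : Type} [TopologicalSpace M] [ChartedSpace (EV 3) M] [IsManifold 𝓘(ℝ, EV 3) ∞ M]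
  [CompactSpace M] [T2Space M] {g : RMetric (EV 3) M}

variable {Γ X B : Type} [Group Γ] [MetricSpace X] [ProperSpace X] [MulAction Γ X]
  [IsIsometricSMul Γ X] [TopologicalSpace B] [CompactSpace B] [T2Space B] [MulAction Γ B]
  [ContinuousConstSMul Γ B]

namespace Over

variable {Φ : ℝ → Fr g → Fr g} {L : Leaf Γ X B} {fr : X → Fr g} (hO : Over Φ L fr)

include hO

/-- `fr` is a quotient map -/
theorem isQuotientMap : Topology.IsQuotientMap fr := by
  obtain ⟨K, hK, hKs⟩ := L.cocompact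
  have hsurj : ∀ f : Fr g, ∃ x ∈ K, fr x = f := fun f => by
    obtain ⟨x, rfl⟩ := hO.surj f
    obtain ⟨γ, hγ⟩ := hKs x
    exact ⟨γ • x, hγ, hO.smul γ x⟩
  rw [Topology.isQuotientMap_iff_isClosed]
  refine ⟨hO.surj, fun s => ⟨fun h => h.preimage hO.cont, fun h => ?_⟩⟩
  have h1 : s = fr '' (K ∩ fr ⁻¹' s) := by
    ext f
    constructor
    · intro hf
      obtain ⟨x, hx, rfl⟩ := hsurj f
      exact ⟨x, ⟨hx, hf⟩, rfl⟩
    · rintro ⟨x, ⟨-, hx⟩, rfl⟩
      exact hx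
  rw [h1]
  exact ((hK.inter_right h).image hO.cont).isClosed

/-- a `Γ`-invariant continuous function on `X` is a continuous function on `Fr g` -/
theorem exists_fr {F : X → ℝ} (hF : Continuous F) (hΓ : ∀ (γ : Γ) x, F (γ • x) = F x) :
    ∃ F' : C(Fr g, ℝ), ∀ x, F' (fr x) = F x := by
  have hq : Topology.IsQuotientMap (⟨fr, hO.cont⟩ : C(X, Fr g)) := hO.isQuotientMap
  have hf : Function.FactorsThrough (⟨F, hF⟩ : C(X, ℝ)) (⟨fr, hO.cont⟩ : C(X, Fr g)) := by
    intro x y hxy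
    obtain ⟨γ, rfl⟩ := hO.fib x y hxy
    exact (hΓ γ x).symm
  exact ⟨hq.lift _ hf, fun x => congrArg (fun q : C(X, ℝ) => q x) (hq.lift_comp _ hf)⟩

/-- a `Γ`- and rotation-invariant continuous function on `X` is a function on `UT g` -/
theorem exists_ut {F : X → ℝ} (hF : Continuous F) (hΓ : ∀ (γ : Γ) x, F (γ • x) = F x)
    (hrot : ∀ a x, F (L.rot a x) = F x) :
    ∃ F' : C(UT g, ℝ), ∀ x, F' ((fr x).ut 0) = F x := by
  obtain ⟨F₁, hF₁⟩ := hO.exists_fr hF hΓ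
  obtain ⟨F', hF'⟩ := exists_desc (g := g) F₁ (fun A hA f => by
    obtain ⟨a, rfl⟩ := exists_mo_ext hA
    obtain ⟨x, rfl⟩ := hO.surj f
    rw [← hO.rot, hF₁, hF₁, hrot])
  exact ⟨F', fun x => (hF' (fr x)).trans (hF₁ x)⟩

theorem ut_rot (a : O2) (x : X) : (fr (L.rot a x)).ut 0 = (fr x).ut 0 := by
  rw [hO.rot, H665.ut_rot (mo_ext_mem a)]

theorem ut_flow (hΦ : IsHorFlow g (Pi.single 0 1) Φ) {φ : ℝ → UT g → UT g}
    (hφ : IsGeoFlow g φ) (t : ℝ) (x : X) :
    (fr (L.φ t x)).ut 0 = φ t ((fr x).ut 0) := by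
  rw [hO.flow, hΦ.ut_eq hφ]

/-- the factor map of 732 -/
theorem factor (hΦ : IsHorFlow g (Pi.single 0 1) Φ) {φ : ℝ → UT g → UT g}
    (hφ : IsGeoFlow g φ) : Factor L φ (fun x => (fr x).ut 0) where
  flow := cflow_geo hφ
  cont := (Fr.continuous_ut 0).comp hO.cont
  smul γ x := by rw [hO.smul]
  rot a x := hO.ut_rot a x
  φ t x := hO.ut_flow hΦ hφ t x

theorem ut_surj (v : UT g) : ∃ x, (fr x).ut 0 = v := by
  obtain ⟨f, rfl⟩ := Q.H892.exists_frame_ut v
  obtain ⟨x, rfl⟩ := hO.surj f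
  exact ⟨x, rfl⟩

/-- transitivity of the geodesic flow -/
theorem const_ut (F : C(UT g, ℝ))
    (hF : ∀ T (f : Fr g), F ((Φ T f).ut 0) = F (f.ut 0)) : ∃ c, ∀ v, F v = c := by
  obtain ⟨x₀⟩ := L.nonempty
  refine ⟨F ((fr x₀).ut 0), fun v => ?_⟩
  obtain ⟨x, rfl⟩ := hO.ut_surj v
  exact invariant_const L (F := fun x => F ((fr x).ut 0))
    (F.continuous.comp ((Fr.continuous_ut 0).comp hO.cont)) (fun γ x => by rw [hO.smul])
    (fun a x => by rw [hO.ut_rot]) (fun t x => by rw [hO.flow, hF]) x x₀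

/-- **`RDat` from a leaf structure over `M`.** -/
theorem exists_RDat [MeasurableSpace B] [BorelSpace B] {ν₀ : Measure B} [ConnectedSpace M] [MeasurableSpace M]
    [BorelSpace M]
    (hΦ : IsHorFlow g (Pi.single 0 1) Φ) (hcont : Continuous fun q : ℝ × Fr g => Φ q.1 q.2)
    (D : MDat g Φ) (hN : NegCurvature g) {φ : ℝ → UT g → UT g} (hφ : IsGeoFlow g φ)
    {μ : Measure M} {m : Measure (UT g)} (hμ : IsRiemVol g μ) (hm : IsLiouville g μ m)
    (heq : ksEntropy m (φ 1) = topEntropy (φ 1))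
    (hW : Hold fun x => D.t ((fr x).ut 0)) (hW' : Hold fun x => D.t ((fr (L.flip x)).ut 0))
    (hAC : HopfAC L φ (fun x => (fr x).ut 0) m ν₀) :
    Nonempty (RDat D (topEntropy (φ 1)).toReal) := by
  have := hm.1
  have := compactSpace_UT g
  have := t2Space_UT g
  have := weaklyRegular_UT m
  obtain ⟨-, -, ψ, hψm, hψI, hψ⟩ := exists_psi_N3 hΦ D hN hφ hμ hm heq
  obtain ⟨r, hr, hrΓ, hrrot, hrφ⟩ := exists_r L (hO.factor hΦ hφ) (mp_geo hφ hμ hm)
    D.t.continuous hW hW' (topEntropy (φ 1)).toReal hψm hψI hψ hAC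
  obtain ⟨r', hr'⟩ := hO.exists_ut hr hrΓ hrrot
  refine N3.exists_RDat hΦ hcont D hO.const_ut r' fun f T => ?_
  obtain ⟨x, rfl⟩ := hO.surj f
  rw [← hO.flow, hr', hr', hrφ]
  simp only [hO.flow]

end Over

end Vale.Agent.P207.N3
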