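import Vale.Agent.P207.N3.Geo.Top
import Vale.Agent.P207.N3.Geo.OverA
import Vale.Agent.P207.N3.Geo.AreaG
import Vale.Agent.P207.N3.H607.RieA
import Vale.Agent.P207.N3.H709.CalibR
import Vale.Agent.P207.N3.H546.MassE
import Vale.Agent.P207.N3.H546.LinkE
import Vale.Agent.P207.N3.H618.ConnG
import Vale.Agent.P207.N3.H824.Area
import Vale.Agent.P207.N3.H732.HoldM
import Vale.Agent.P207.N3.H265.GeoX
import Vale.Agent.P207.N3.H266.TensG
import Vale.Agent.P207.N3.H662.Fin
import Vale.Agent.P207.N3.H76.FibA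
import Vale.Agent.P207.N3.Top.Suite

/-!
# P207, line N3: all the structures of the universal cover, at one base point
-/

open scoped Manifold ContDiff ENNReal Topology Matrix
open Bundle MeasureTheory Set Filter

set_option maxSynthPendingDepth 3
set_option linter.unusedSectionVars false

noncomputable section

namespace Vale.Agent.P207.N3

open Vale.Agent.P255 (RMetric Npc)
open Vale.Agent.P207.Q Vale.Agent.P207.Q.H130 Vale.Agent.P207.Q.H892
open H908 (mo rotE)
open H465 (Deck PB Mt toMt ofMt Xt homeoMt)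
open H156 (geoA Dk fl co jA)
open H607 (geoInL rieA)

theorem nuBound : NuBound := fun _ _ I C => H662.nu_bound I C

theorem areaStmt {Γ X B : Type} [Group Γ] [MetricSpace X] [ProperSpace X] [MulAction Γ X]
    [IsIsometricSMul Γ X] [TopologicalSpace B] [CompactSpace B] [T2Space B] [MulAction Γ B]
    [ContinuousConstSMul Γ B] [MeasurableSpace B] [BorelSpace B] (L : Leaf Γ X B) {h : ℝ}
    (hh : 0 < h) : AreaStmt L h :=
  fun s h1 h2 h3 h4 h5 => H824.exists_area_of_dens L h hh s h1 h2 h3 h4 h5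

/-- the function `D` is at most the sum of the Busemann functions -/
theorem D_le_of {Γ X B V : Type} [Group Γ] [MetricSpace X] [ProperSpace X] [MulAction Γ X]
    [IsIsometricSMul Γ X] [TopologicalSpace B] [CompactSpace B] [T2Space B] [MulAction Γ B]
    [ContinuousConstSMul Γ B] [MeasurableSpace B] [BorelSpace B]
    [NormedAddCommGroup V] [NormedSpace ℝ V] [FiniteDimensional ℝ V] {L : Leaf Γ X B}
    {I : H722.GeoIn L V} (hX : GeoX I) (A : Area L) (ξ η : B) (q : V) (h : ξ ≠ η) :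
    A.D ξ η ≤ I.b ξ q + I.b η q := by
  obtain ⟨x, rfl, rfl, -⟩ := L.exists_frame ξ η h 0
  rw [A.D_eq]
  exact hX.le x q

section Bnd

variable {Γ X Y : Type} [Group Γ] [MetricSpace X] [ProperSpace X] [MetricSpace Y]
  [ProperSpace Y] [MulAction Γ X] [MulAction Γ Y] [IsIsometricSMul Γ X]
  [IsIsometricSMul Γ Y] (G : H76.Geo Γ X Y) (o : Y)

instance : MeasurableSpace (G.Bnd o) := borel _

instance : BorelSpace (G.Bnd o) := ⟨rfl⟩

end Bnd

variable {M : Type} [TopologicalSpace M] [ChartedSpace (EV 3) M] [IsManifold 𝓘(ℝ, EV 3) ∞ M]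
  [CompactSpace M] [T2Space M] [ConnectedSpace M] {g : RMetric (EV 3) M} [Nonempty (Fr g)]
  {hN : NegCurvature g} {m : M} {I : (geoA hN m).In3 (jA (npc_of_neg hN) m)} {r₀ t₁ χ : ℝ}

/-- the frames of the input structure are the frames of `M` -/
theorem link_frm (hc : H76.Geo.Cst I r₀ t₁ χ) (o : Mt (sys g (npc_of_neg hN)) m)
    (x y : Xt g (npc_of_neg hN) m) (v : E3)
    (h1 : (geoInL hc (rieA hN m) o).S.ft x = (geoInL hc (rieA hN m) o).S.ft y)
    (h2 : (geoInL hc (rieA hN m) o).E x H76.e0 = (geoInL hc (rieA hN m) o).E y v) :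
    (frm x).pt = (frm y).pt ∧ (frm x).e 0 = Lf (frm y) v := by
  obtain ⟨h3, h4⟩ := H546.link_M (npc_of_neg hN) m (x := x) (y := y) (c := H76.e0) h1 h2
  refine ⟨h3, ?_⟩
  have h5 : Lf x.f H76.e0 = x.f.e 0 := by
    rw [Lf_apply, Fin.sum_univ_three]
    simp [H76.e0, H76.pk]
  rw [h5] at h4
  exact h4

/-- the Busemann functions vanish at the base point -/
theorem b_base (hc : H76.Geo.Cst I r₀ t₁ χ) (o : Mt (sys g (npc_of_neg hN)) m)
    {x : Xt g (npc_of_neg hN) m} (hx : (geoA hN m).ft x = o) (ξ : (geoA hN m).Bnd o) :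
    (geoInL hc (rieA hN m) o).b ξ ((geoInL hc (rieA hN m) o).S.ft x) = 0 := by
  change H728.bus (H728.Bd.ln ξ) ((geoA hN m).ft x) = 0
  rw [hx]
  exact H728.bus_base ξ

/-- the unstable Riccati solution over the universal cover -/
def ukL (hc : H76.Geo.Cst I r₀ t₁ χ) (o : Mt (sys g (npc_of_neg hN)) m)
    (D : MDat g ((horFlows g).Φ 0)) : H618.UK (hc.leaf o) :=
  H618.ukOf ((horFlows g).hor 0) (over_leaf hc o) D

section Suit

variable (hc : H76.Geo.Cst I r₀ t₁ χ) (o : Mt (sys g (npc_of_neg hN)) m)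
  {D : MDat g ((horFlows g).Φ 0)}
  (C : H618.Conn (geoInL hc (rieA hN m) o) (ukL hc o D).U)

include C in
/-- the areas -/
theorem exists_areaL {h : ℝ} (hh : 0 < h) (R : RDat D h) :
    ∃ A : Area (hc.leaf o), A.h = h ∧
      ∀ x, A.s x 0 = r₀ ^ 2 * Real.exp (R.r ((frm x).ut 0)) :=
  exists_area ((horFlows g).hor 0) (over_leaf hc o) D (H306.ji (geoInL hc (rieA hN m) o) (ukL hc o D) C.jac) R
    (hc.small o).pos (areaStmt (hc.leaf o) hh)

/-- the normalisation of the areas -/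
theorem s_norm {h : ℝ} (R : RDat D h) {A : Area (hc.leaf o)}
    (hA : ∀ x, A.s x 0 = r₀ ^ 2 * Real.exp (R.r ((frm x).ut 0)))
    (x : Xt g (npc_of_neg hN) m) :
    A.s x 0 * A.s ((hc.leaf o).flip x) 0 =
      r₀ ^ 4 * (C.metr.U x + C.metr.U ((hc.leaf o).flip x)).det := by
  have h1 : C.metr.U x + C.metr.U ((hc.leaf o).flip x) =
      H618.cl (D.U (frm x) + D.U (flipF (frm x))) := by
    rw [H618.cl_add, ← (over_leaf hc o).flip]
    rfl
  rw [h1, H546.cl_det, ← D.S_eq, R.norm, hA, hA, (over_leaf hc o).flip, Real.exp_add]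
  ring

/-- **the geometric input of the logic** -/
def suiteOf {h : ℝ} (R : RDat D h) (hX : GeoX (geoInL hc (rieA hN m) o))
    (A : Area (hc.leaf o)) (hA : ∀ x, A.s x 0 = r₀ ^ 2 * Real.exp (R.r ((frm x).ut 0)))
    (x₀ : Xt g (npc_of_neg hN) m) : Suite (hc.leaf o) (EV 3) where
  A := A
  M := C.metr
  I := geoInL hc (rieA hN m) o
  X := hX
  H := C.metr_hess
  F := H76.fiberA hc o x₀
  norm x := s_norm hc o C R hA x

include C in
/-- **all the structures at one base point** -/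
theorem exists_suite {h : ℝ} (hh : 0 < h) (R : RDat D h)
    (hX : GeoX (geoInL hc (rieA hN m) o))
    (hO : ∀ S : Suite (hc.leaf o) (EV 3), Nonempty (H662.CaseI (hc.leaf o) S.A)) :
    Nonempty (BSuite D R ((sys g (npc_of_neg hN)).e m (ofMt _ _ o)) (Dk (npc_of_neg hN) m)
      (Xt g (npc_of_neg hN) m) ((geoA hN m).Bnd o)) := by
  obtain ⟨A, hAh, hAs⟩ := exists_areaL hc o C hh R
  obtain ⟨f, hf⟩ := H892.exists_frame g ((sys g (npc_of_neg hN)).e m (ofMt _ _ o))
  set x₀ : Xt g (npc_of_neg hN) m := PB.mk (ofMt _ _ o) f hf.symm with hx₀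
  have hft : (geoA hN m).ft x₀ = o := rfl
  have hU : ∀ x, C.metr.U x = H618.cl (D.U (frm x)) := fun x => rfl
  refine ⟨⟨hc.leaf o, A, hAh, hO (suiteOf hc o C R hX A hAs x₀), ?_, ?_⟩⟩
  · exact H709.calibR (geoInL hc (rieA hN m) o) (over_leaf hc o) R hU C.metr_hess hAs
      (D_le_of hX A) (b_base hc o hft)
  · have h1 := H546.mass_le ((horFlows g).hor 0) (over_leaf hc o) (geoInL hc (rieA hN m) o) R hU
      C.metr_hess hAs (link_frm hc o) (b_base hc o hft)
    have h2 : (frm x₀).pt = (sys g (npc_of_neg hN)).e m (ofMt _ _ o) := hf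
    rwa [h2] at h1

end Suit

end Vale.Agent.P207.N3
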