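import Vale.Agent.P207.Q.H916.Fr3
import Vale.Agent.P207.N3.Spec

/-!
# P207, dimension 3 (the line N3): the concrete model of the universal cover

`HM Γ`: a complete Riemannian metric `G` of pinched negative curvature on `E3 = ℝ³` (one chart),
with a free, proper, cocompact action of `Γ` by isometries. In the application `E3` is the tangent
space at a point `p` of the closed 3-manifold `M`, `G` is the pull-back of the metric under the
covering map `exp_p`, and `Γ` is the group of deck transformations.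

`St3 = E3 × (Fin 3 → E3)`: a point with three vectors. `H.Φ ξ y`: parallel transport of the three
vectors along the geodesic with initial vector `∑ ξ i • y.2 i`, up to time `1`; it is smooth on the
whole vector space `E3 × St3`. `H.X`: the orthonormal frames, a closed subset of `St3`.
-/

open Set Filter Topology Metric
open scoped ContDiff

noncomputable section

namespace Vale.Agent.P207.N3

open Vale.Agent.P255 (IsMetricOn chris curv)
open Vale.Agent.P207.Q (St hF)

/-- a point of `ℝ³` with three vectors -/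
abbrev St3 : Type := St (Fin 3) 3

/-- the vector with components `u` in the frame `y` -/
def vS (y : St3) (u : E3) : E3 := ∑ i, u i • y.2 i

/-- change of the three vectors by a linear map: `vS (mulS a y) u = vS y (a u)` -/
def mulS (a : E3 →L[ℝ] E3) (y : St3) : St3 :=
  (y.1, fun i => ∑ j, (a (EuclideanSpace.single i 1)) j • y.2 j)

/-- the first basis vector -/
def e0 : E3 := EuclideanSpace.single 0 1

/-- the vector `(0, u)` -/
def up (u : E2) : E3 := !₂[0, u 0, u 1]

/-- the orthogonal map of the space which is `a` on the last two coordinates -/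
def IsExt (a : O2) (A : O3) : Prop := A e0 = e0 ∧ ∀ u, A (up u) = up (a u)

/-- the reflection `v₀ ↦ -v₀` -/
def IsFlip (A : O3) : Prop := A e0 = -e0 ∧ ∀ u, A (up u) = up u

/-- A complete metric of pinched negative curvature on `ℝ³` with a cocompact group of
isometries. -/
structure HM (Γ : Type) [Group Γ] where
  G : E3 → E3 →L[ℝ] E3 →L[ℝ] ℝ
  met : IsMetricOn G univ
  /-- the group -/
  act : Γ → E3 → E3
  act_one : ∀ q, act 1 q = q
  act_mul : ∀ a b q, act (a * b) q = act a (act b q)
  act_smooth : ∀ γ, ContDiff ℝ ∞ (act γ)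
  act_iso : ∀ γ q v w, G (act γ q) (fderiv ℝ (act γ) q v) (fderiv ℝ (act γ) q w) = G q v w
  act_free : ∀ γ q, act γ q = q → γ = 1
  act_proper : ∀ K : Set E3, IsCompact K → {γ | ∃ q ∈ K, act γ q ∈ K}.Finite
  act_cocompact : ∃ K : Set E3, IsCompact K ∧ ∀ q, ∃ γ, act γ q ∈ K
  /-- parallel transport of three vectors along the geodesic with initial vector `vS y ξ` -/
  Φ : E3 → St3 → St3
  Φ_smooth : ContDiff ℝ ∞ fun p : E3 × St3 => Φ p.1 p.2
  Φ_zero : ∀ y, Φ 0 y = y
  Φ_ode : ∀ (ξ : E3) (y : St3) (t : ℝ),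
    HasDerivAt (fun s : ℝ => Φ (s • ξ) y) (hF G (fun i => ξ i) (Φ (t • ξ) y)) t
  /-- `lg q q'` is the initial vector of the geodesic from `q` to `q'` (in time `1`) -/
  lg : E3 → E3 → E3
  lg_smooth : ContDiff ℝ ∞ fun p : E3 × E3 => lg p.1 p.2
  lg_Φ : ∀ (y : St3) (ξ : E3), lg y.1 (Φ ξ y).1 = vS y ξ
  Φ_lg : ∀ (q q' : E3) (y : St3) (ξ : E3), y.1 = q → vS y ξ = lg q q' → (Φ ξ y).1 = q'
  /-- the bounds of the curvature -/
  k : ℝ
  k_pos : 0 < k
  κ : ℝ
  k_le : k ≤ κ
  curv_le : ∀ q v w, G q (curv G q v w w) v ≤ -k ^ 2 * (G q v v * G q w w - G q v w ^ 2)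
  le_curv : ∀ q v w, -κ ^ 2 * (G q v v * G q w w - G q v w ^ 2) ≤ G q (curv G q v w w) v

namespace HM

variable {Γ : Type} [Group Γ] (H : HM Γ)

/-- the norm at a point -/
def nm (q v : E3) : ℝ := Real.sqrt (H.G q v v)

/-- the exponential map -/
def ex (q v : E3) : E3 := (H.Φ e0 (q, fun _ => v)).1

/-- the distance -/
def ds (q q' : E3) : ℝ := H.nm q (H.lg q q')

/-- The comparison of hinges: upper curvature bound `-k²`. -/
def Hinge : Prop := ∀ q u v, u ≠ 0 → v ≠ 0 →
  Real.cosh (H.k * H.nm q u) * Real.cosh (H.k * H.nm q v) -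
    Real.sinh (H.k * H.nm q u) * Real.sinh (H.k * H.nm q v) *
      (H.G q u v / (H.nm q u * H.nm q v)) ≤
  Real.cosh (H.k * H.ds (H.ex q u) (H.ex q v))

/-- The comparison of hinges: lower curvature bound `-κ²`. -/
def HingeLow : Prop := ∀ q u v, u ≠ 0 → v ≠ 0 →
  Real.cosh (H.κ * H.ds (H.ex q u) (H.ex q v)) ≤
  Real.cosh (H.κ * H.nm q u) * Real.cosh (H.κ * H.nm q v) -
    Real.sinh (H.κ * H.nm q u) * Real.sinh (H.κ * H.nm q v) *
      (H.G q u v / (H.nm q u * H.nm q v))

/-- orthonormal frames -/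
def IsON (y : St3) : Prop := ∀ i j, H.G y.1 (y.2 i) (y.2 j) = if i = j then 1 else 0

/-- the bundle of orthonormal frames of `(ℝ³, G)` -/
def X : Type := {y : St3 // H.IsON y}

/-- the points of `(ℝ³, G)` -/
def Y (_ : HM Γ) : Type := E3

/-- the foot point -/
def ft (x : H.X) : H.Y := x.1.1

/-- the action of the group on families of vectors -/
def actS (γ : Γ) (y : St3) : St3 := (H.act γ y.1, fun i => fderiv ℝ (H.act γ) y.1 (y.2 i))

/-- the differential of `Φ`'s foot point in the Fermi chart `(t, u) ↦ ex (φ_t x) (0, u)` of the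
geodesic of `x`: the foot point -/
def fermi (y : St3) (t : ℝ) (u : E2) : E3 := (H.Φ (up u) (H.Φ (t • e0) y)).1

end HM

/-- The relation of the model with the closed manifold `M`. -/
structure HMCov {M : Type} [TopologicalSpace M] [ChartedSpace (EV 3) M]
    [IsManifold (modelWithCornersSelf ℝ (EV 3)) ∞ M] (g : Vale.Agent.P255.RMetric (EV 3) M)
    {Γ : Type} [Group Γ] (H : HM Γ) where
  /-- the covering map on the frames -/
  pr : H.X → Vale.Agent.P207.Q.Fr g
  /-- the covering map -/
  π : E3 → M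
  π_cont : Continuous π
  π_surj : Function.Surjective π
  π_ft : ∀ x : H.X, (pr x).pt = π x.1.1
  π_eq : ∀ q q', π q = π q' ↔ ∃ γ, q' = H.act γ q
  /-- `pr x` is the image of the frame `x` under the differential of `π` -/
  pr_e : ∀ (x : H.X) (i : Fin 3), (pr x).e i =
    fderiv ℝ (fun q => chartAt (EV 3) (π x.1.1) (π q)) x.1.1 (x.1.2 i)
  /-- `π` is a smooth local isometry -/
  π_smooth : ∀ (q : E3) (a : M), π q ∈ (chartAt (EV 3) a).source →
    ContDiffAt ℝ ∞ (fun q' => chartAt (EV 3) a (π q')) q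
  π_iso : ∀ (q : E3) (a : M), π q ∈ (chartAt (EV 3) a).source → ∀ v w : E3,
    Vale.Agent.P255.coefL g a (chartAt (EV 3) a (π q))
      (fderiv ℝ (fun q' => chartAt (EV 3) a (π q')) q v)
      (fderiv ℝ (fun q' => chartAt (EV 3) a (π q')) q w) = H.G q v w

end Vale.Agent.P207.N3
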