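import Vale.Agent.P207.N3.Geo.MDat
import Vale.Agent.P207.N3.H732.Core

/-!
# P207, line N3, row R17: the integrable solution of the cohomological equation
-/

open scoped Manifold ContDiff ENNReal Topology Matrix
open Bundle MeasureTheory Set Filter

set_option maxSynthPendingDepth 3
set_option linter.unusedSectionVars false

noncomputable section

namespace Vale.Agent.P207.N3

open Vale.Agent.P255 (RMetric)
open Vale.Agent.P207.Q Vale.Agent.P207.Q.H130

variable {M : Type} [TopologicalSpace M] [ChartedSpace (EV 3) M] [IsManifold 𝓘(ℝ, EV 3) ∞ M]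
  [CompactSpace M] [T2Space M] {g : RMetric (EV 3) M}

theorem weaklyRegular_UT (m : Measure (UT g)) [IsFiniteMeasure m] : m.WeaklyRegular := by
  have := metrizableSpace_UT g
  let := TopologicalSpace.metrizableSpaceMetric (UT g)
  infer_instance

theorem cflow_geo {φ : ℝ → UT g → UT g} (hφ : IsGeoFlow g φ) : N3.H732.CFlow φ :=
  ⟨hφ.zero, hφ.add, hφ.continuous⟩

theorem mp_geo [MeasurableSpace M] [BorelSpace M] {φ : ℝ → UT g → UT g} (hφ : IsGeoFlow g φ)
    {μ : Measure M} {m : Measure (UT g)} (hμ : IsRiemVol g μ) (hm : IsLiouville g μ m) (t : ℝ) :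
    MeasurePreserving (φ t) m m :=
  IsLiouville.measurePreserving (by norm_num) hφ hμ hm t

/-- **R17** -/
theorem exists_psi_N3 [ConnectedSpace M] [MeasurableSpace M] [BorelSpace M] {Φ : ℝ → Fr g → Fr g}
    (hΦ : IsHorFlow g (Pi.single 0 1) Φ) (D : MDat g Φ) (hN : NegCurvature g)
    {φ : ℝ → UT g → UT g} (hφ : IsGeoFlow g φ) {μ : Measure M} {m : Measure (UT g)}
    (hμ : IsRiemVol g μ) (hm : IsLiouville g μ m)
    (heq : ksEntropy m (φ 1) = topEntropy (φ 1)) :
    0 < (topEntropy (φ 1)).toReal ∧ ∫ p, D.t p ∂m = (topEntropy (φ 1)).toReal ∧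
    ∃ ψ : UT g → ℝ, Measurable ψ ∧ Integrable ψ m ∧
      ∀ T, ∀ᵐ p ∂m, ψ (φ T p) - ψ p =
        N3.H732.SS φ (fun p => D.t p - (topEntropy (φ 1)).toReal) T p := by
  have hLam : 0 < max D.Lam 1 := lt_max_of_lt_right one_pos
  obtain ⟨hJu, hJl⟩ := H129.jac_upper_lower (k := 2) hΦ hφ D.lam_pos hLam
    (fun f i j r => D.ur.ric f r i j) (D.symm hΦ) D.ur.lo
    (fun f x => (D.hi f x).trans (mul_le_mul_of_nonneg_right (le_max_left _ _)
      (Finset.sum_nonneg fun i _ => mul_self_nonneg _))) D.t_eq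
  obtain ⟨h1, h2, h3⟩ := integral_eq_of_entropy_eq (by norm_num) hφ hN hμ hm heq
    D.t.continuous hJu hJl
  obtain ⟨ψ, h4, h5, h6, -⟩ := exists_psi (by norm_num) hφ hN hμ hm heq D.t.continuous hJu hJl
  exact ⟨h2, h3, ψ, h4, h5, h6⟩

end Vale.Agent.P207.N3
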