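import Vale.Agent.P207.N3.Geo.Glue
import Vale.Agent.P207.N3.Top.Logic
import Vale.Agent.P207.N3.H546.R21

/-!
# P207, line N3: the top theorem from the leaf structures at all base points
-/

open scoped Manifold ContDiff ENNReal Topology Matrix
open Bundle MeasureTheory Set Filter

set_option maxSynthPendingDepth 3
set_option linter.unusedSectionVars false

noncomputable section

namespace Vale.Agent.P207.N3

open Vale.Agent.P255 (RMetric)
open Vale.Agent.P207.Q Vale.Agent.P207.Q.H130
open Vale.Agent.P207F (ConstCurvature)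

variable {M : Type} [TopologicalSpace M] [ChartedSpace (EV 3) M] [IsManifold 𝓘(ℝ, EV 3) ∞ M]
  [CompactSpace M] [T2Space M] {g : RMetric (EV 3) M}

/-- (P8, 662 + 158) the bound of the visual measure -/
def NuBound : Prop :=
  ∀ {Γ X B : Type} [Group Γ] [MetricSpace X] [ProperSpace X] [MulAction Γ X]
    [IsIsometricSMul Γ X] [TopologicalSpace B] [CompactSpace B] [T2Space B] [MulAction Γ B]
    [ContinuousConstSMul Γ B] [MeasurableSpace B] [BorelSpace B] (L : Leaf Γ X B) (A : Area L),
    H662.CaseI L A → H662.Calib L A → A.ν univ ≤ ENNReal.ofReal (4 / A.h * Real.pi)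

/-- Everything at the base point `p` of `M`. -/
structure BSuite {Φ : ℝ → Fr g → Fr g} (D : MDat g Φ) {h : ℝ} (R : RDat D h) (p : M)
    (Γ X B : Type) [Group Γ] [MetricSpace X] [ProperSpace X] [MulAction Γ X]
    [IsIsometricSMul Γ X] [TopologicalSpace B] [CompactSpace B] [T2Space B] [MulAction Γ B]
    [ContinuousConstSMul Γ B] [MeasurableSpace B] [BorelSpace B] where
  L : Leaf Γ X B
  A : Area L
  A_h : A.h = h
  caseI : Nonempty (H662.CaseI L A)
  calib : H662.Calib L A
  mass : ENNReal.ofReal (4 * Real.pi * sphAvg g (fun v => Real.exp (R.r v) / D.S v) p) ≤ A.ν univ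

theorem BSuite.bound {Φ : ℝ → Fr g → Fr g} {D : MDat g Φ} {h : ℝ} {R : RDat D h}
    {p : M} {Γ X B : Type} [Group Γ] [MetricSpace X] [ProperSpace X] [MulAction Γ X]
    [IsIsometricSMul Γ X] [TopologicalSpace B] [CompactSpace B] [T2Space B] [MulAction Γ B]
    [ContinuousConstSMul Γ B] [MeasurableSpace B] [BorelSpace B] (hν : NuBound)
    (S : BSuite D R p Γ X B) :
    sphAvg g (fun v => Real.exp (R.r v) / D.S v) p ≤ 1 / h := by
  have hh : 0 < h := S.A_h ▸ S.A.h_pos
  obtain ⟨I⟩ := S.caseI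
  have h1 := S.mass.trans (hν S.L S.A I S.calib)
  have h2 : (0 : ℝ) < 4 / S.A.h * Real.pi := by
    have := S.A.h_pos
    positivity
  rw [ENNReal.ofReal_le_ofReal_iff h2.le, S.A_h] at h1
  have h3 : 4 / h * Real.pi = 4 * Real.pi * (1 / h) := by ring
  rw [h3] at h1
  exact le_of_mul_le_mul_left h1 (by positivity)

/-- **the top**: constant curvature from the bounds at all points -/
theorem core_of_bounds [ConnectedSpace M] [MeasurableSpace M] [BorelSpace M]
    (hN : NegCurvature g) {φ : ℝ → UT g → UT g} (hφ : IsGeoFlow g φ) {μ : Measure M}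
    {m : Measure (UT g)} (hμ : IsRiemVol g μ) (hm : IsLiouville g μ m)
    (heq : ksEntropy m (φ 1) = topEntropy (φ 1))
    (hR : ∀ [Nonempty (Fr g)] (D : MDat g ((horFlows g).Φ 0)),
      Nonempty (RDat D (topEntropy (φ 1)).toReal))
    (hS : ∀ [Nonempty (Fr g)] (D : MDat g ((horFlows g).Φ 0))
      (R : RDat D (topEntropy (φ 1)).toReal) (p : M),
      sphAvg g (fun v => Real.exp (R.r v) / D.S v) p ≤ 1 / (topEntropy (φ 1)).toReal) :
    ∃ κ, ConstCurvature g κ := by
  obtain ⟨hsc, hne, -⟩ := H413.exists_setting hφ hμ hm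
  obtain ⟨D⟩ := exists_MDat hN hφ
  obtain ⟨R⟩ := hR D
  have hh := (exists_psi_N3 ((horFlows g).hor 0) D hN hφ hμ hm heq).1
  exact H546.const_of_mass hN hφ hμ hm D hh R (hS D R)

end Vale.Agent.P207.N3
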