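import Vale.Agent.P207.N3.Geo.Over
import Vale.Agent.P207.Q.H183.JU4
import Vale.Agent.P207.Q.H717.PPinch

/-!
# P207, line N3, row R0: the unstable Riccati solution of a negatively curved closed 3-manifold
-/

open scoped Manifold ContDiff ENNReal Topology Matrix Matrix.Norms.L2Operator
open Bundle MeasureTheory Set Filter

set_option maxSynthPendingDepth 3
set_option linter.unusedSectionVars false

noncomputable section

namespace Vale.Agent.P207.N3

open Vale.Agent.P255 (RMetric)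
open Vale.Agent.P207.Q Vale.Agent.P207.Q.H130 Vale.Agent.P207.Q.H183 Vale.Agent.P207.Q.Ric
open Vale.Agent.P207.Q.H892 (Stab)

variable {M : Type} [TopologicalSpace M] [ChartedSpace (EV 3) M] [IsManifold 𝓘(ℝ, EV 3) ∞ M]
  [CompactSpace M] [T2Space M] {g : RMetric (EV 3) M}

theorem continuous_Km : Continuous fun f : Fr g => Km g f := by
  refine continuous_matrix fun i j => ?_
  exact (H717.continuous_Rf g i.succ 0 0 j.succ).neg

theorem Km_form (f : Fr g) (x y : ℝ) : qf x y (Km g f) =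
    x ^ 2 * (- H545.Rf g f 1 0 0 1) + 2 * x * y * (- H545.Rf g f 1 0 0 2) + y ^ 2 * (- H545.Rf g f 2 0 0 2) := by
  have h : Km g f 1 0 = Km g f 0 1 := congrFun (congrFun (Km_symm f) 0) 1
  have h1 : Km g f 0 0 = - H545.Rf g f 1 0 0 1 := rfl
  have h2 : Km g f 0 1 = - H545.Rf g f 1 0 0 2 := rfl
  have h3 : Km g f 1 1 = - H545.Rf g f 2 0 0 2 := rfl
  rw [qf, h, h1, h2, h3]
  ring

/-- `N = Λ² - K` along the frame flow -/
def NF (g : RMetric (EV 3) M) (Φ : ℝ → Fr g → Fr g) (Lam : ℝ) (f : Fr g) (r : ℝ) : M2 :=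
  (Lam ^ 2) • (1 : M2) - Km g (Φ r f)

theorem NF_apply (Φ : ℝ → Fr g → Fr g) (Lam : ℝ) (f : Fr g) (r : ℝ) (i j : Fin 2) :
    NF g Φ Lam f r i j = (if i = j then Lam ^ 2 else 0) - Km g (Φ r f) i j := by
  simp [NF, Matrix.one_apply, Matrix.smul_apply]

theorem NF_symm (Φ : ℝ → Fr g → Fr g) (Lam : ℝ) (f : Fr g) (r : ℝ) :
    NF g Φ Lam f r 1 0 = NF g Φ Lam f r 0 1 := by
  have h : Km g (Φ r f) 1 0 = Km g (Φ r f) 0 1 := congrFun (congrFun (Km_symm (Φ r f)) 0) 1
  rw [NF_apply, NF_apply, h]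
  simp

theorem qf_NF (Φ : ℝ → Fr g → Fr g) (Lam : ℝ) (f : Fr g) (r x y : ℝ) :
    qf x y (NF g Φ Lam f r) = Lam ^ 2 * (x ^ 2 + y ^ 2) - qf x y (Km g (Φ r f)) := by
  simp only [qf, NF_apply]
  simp
  ring

section

variable [Nonempty (Fr g)]

theorem exists_UR (hN : NegCurvature g) : ∃ (lam Lam : ℝ) (U : Fr g → Matrix (Fin 2) (Fin 2) ℝ),
    Continuous U ∧ IsUR ((horFlows g).Φ 0) lam Lam U ∧
      ∀ f x, x ⬝ᵥ (U f *ᵥ x) ≤ Lam * (x ⬝ᵥ x) := by
  obtain ⟨lam, Lam, hl, hle, hb⟩ := H717.exists_bounds_of_neg (i₀ := (0 : Fin 3)) (i₁ := 1)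
    (by decide) hN
  set Φ := (horFlows g).Φ 0 with hΦ
  have hor := (horFlows g).hor 0
  have hcont : Continuous fun q : ℝ × Fr g => Φ q.1 q.2 := (horFlows g).cont 0
  have hK : ∀ (f : Fr g) x y, lam ^ 2 * (x ^ 2 + y ^ 2) ≤ qf x y (Km g f) ∧
      qf x y (Km g f) ≤ Lam ^ 2 * (x ^ 2 + y ^ 2) := fun f x y => by
    rw [Km_form]
    exact H717.quadratic_bounds_at f (fun f' _ => hb f') x y
  have hL0 : 0 ≤ Lam ^ 2 - lam ^ 2 := by nlinarith
  have hN : HypN lam Lam (NF g Φ Lam) :=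
    { lam_pos := hl
      le := hle
      cont := continuous_const.sub
        (continuous_Km.comp (hcont.comp (continuous_snd.prodMk continuous_fst)))
      bound := fun f r => norm_M2_le (NF_symm Φ Lam f r) hL0 fun x y => by
        have h1 := hK (Φ r f) x y
        rw [qf_NF, abs_of_nonneg (by linarith [h1.2])]
        linarith [h1.1] }
  have hflow : ∀ f t r, NF g Φ Lam (Φ t f) r = NF g Φ Lam f (r + t) := by
    intro f t r
    have h := hor.add r t f
    change NF g Φ Lam (Φ t f) r = NF g Φ Lam f (r + t)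
    rw [NF, NF]
    rw [hΦ, h]
  have h00 : ∀ f r x y, 0 ≤ qf x y (NF g Φ Lam f r) := fun f r x y => by
    rw [qf_NF]
    linarith [(hK (Φ r f) x y).2]
  set T : Fr g → ℝ → M2 := Ric.T Lam (NF g Φ Lam) with hT
  have hTc : Continuous (Function.uncurry T) := T_cont hN
  let U : Fr g → Matrix (Fin 2) (Fin 2) ℝ := fun f => Lam • (1 : M2) - T f 0
  have hUf : ∀ s f, U (Φ s f) = Lam • (1 : M2) - T f s := by
    intro s f
    change Lam • (1 : M2) - T (Φ s f) 0 = _
    rw [hT, T_flow hN hflow f s 0, zero_add]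
  have hUc : Continuous U :=
    continuous_const.sub (hTc.comp (continuous_id.prodMk continuous_const))
  have hsym : ∀ f, T f 0 1 0 = T f 0 0 1 := fun f => T_symm hN (NF_symm Φ Lam) f 0
  have hUe : ∀ f i j, U f i j = (if i = j then Lam else 0) - T f 0 i j := fun f i j => by
    simp [U, Matrix.one_apply, Matrix.smul_apply]
  have hform : ∀ f (x : Fin 2 → ℝ), x ⬝ᵥ (U f *ᵥ x) =
      Lam * (x 0 ^ 2 + x 1 ^ 2) - qf (x 0) (x 1) (T f 0) := fun f x => by
    simp only [dotProduct, Matrix.mulVec, Fin.sum_univ_two, hUe, qf]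
    simp
    ring
  have hsq : ∀ x : Fin 2 → ℝ, x ⬝ᵥ x = x 0 ^ 2 + x 1 ^ 2 := fun x => by
    simp only [dotProduct, Fin.sum_univ_two]
    ring
  have hTn : ∀ f, ‖T f 0‖ ≤ Lam - lam := fun f => T_le hN f 0
  have hent : ∀ (a : M2) (i j : Fin 2), |a i j| ≤ ‖a‖ := by
    intro a i j
    have e : ‖a‖ = ‖Matrix.toEuclideanCLM (n := Fin 2) (𝕜 := ℝ) a‖ := rfl
    have h1 := (Matrix.toEuclideanCLM (n := Fin 2) (𝕜 := ℝ) a).le_opNorm
      (EuclideanSpace.single j 1)
    have h2 : ‖(EuclideanSpace.single j 1 : EuclideanSpace ℝ (Fin 2))‖ = 1 := by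
      rw [EuclideanSpace.norm_single]
      simp
    have h3 := PiLp.norm_apply_le
      (Matrix.toEuclideanCLM (n := Fin 2) (𝕜 := ℝ) a (EuclideanSpace.single j 1)) i
    rw [h2, mul_one] at h1
    have h4 : (Matrix.toEuclideanCLM (n := Fin 2) (𝕜 := ℝ) a (EuclideanSpace.single j 1)) i
        = a i j := by
      rw [Matrix.ofLp_toEuclideanCLM]
      simp
    rw [h4] at h3
    exact h3.trans h1
  refine ⟨lam, Lam, U, hUc, ⟨hl, fun f x => ?_, fun f i j => ?_, fun f r i j => ?_⟩,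
    fun f x => ?_⟩
  · rw [hform, hsq]
    have h1 := (abs_le.1 (qf_le_norm (T f 0) (x 0) (x 1))).2
    have h2 : ‖T f 0‖ * (x 0 ^ 2 + x 1 ^ 2) ≤ (Lam - lam) * (x 0 ^ 2 + x 1 ^ 2) :=
      mul_le_mul_of_nonneg_right (hTn f) (by positivity)
    nlinarith
  · -- entries
    have hLp : 0 < Lam := hl.trans_le hle
    have hdiag : ∀ x y : ℝ, 0 ≤ qf x y (U f) ∧ qf x y (U f) ≤ Lam * (x ^ 2 + y ^ 2) := by
      intro x y
      have e : qf x y (U f) = Lam * (x ^ 2 + y ^ 2) - qf x y (T f 0) := by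
        simp only [qf, hUe]
        simp
        ring
      have h1 := (abs_le.1 (qf_le_norm (T f 0) x y)).2
      have h2 : ‖T f 0‖ * (x ^ 2 + y ^ 2) ≤ (Lam - lam) * (x ^ 2 + y ^ 2) :=
        mul_le_mul_of_nonneg_right (hTn f) (by positivity)
      have h3 := T_nonneg hN (NF_symm Φ Lam) h00 f 0 x y
      have h4 : 0 ≤ lam * (x ^ 2 + y ^ 2) := by positivity
      rw [e]
      constructor
      · nlinarith
      · rw [hT]
        linarith
    have hs : U f 1 0 = U f 0 1 := by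
      rw [hUe, hUe, hsym f]
      simp
    have h1 : ‖(U f : M2)‖ ≤ Lam := norm_M2_le hs hLp.le fun x y => by
      rw [abs_of_nonneg (hdiag x y).1]
      exact (hdiag x y).2
    exact (hent _ i j).trans h1
  · have h1 := (ent i j).hasFDerivAt.comp_hasDerivAt r (hasDerivAt_T hN f r)
    have h2 := (hasDerivAt_const r (if i = j then Lam else 0)).sub h1
    have h3 : (fun s => U (Φ s f) i j) = fun s => (if i = j then Lam else 0) -
        (ent i j ∘ Ric.T Lam (NF g Φ Lam) f) s := by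
      funext s
      rw [hUf]
      simp [Matrix.one_apply, Matrix.smul_apply, hT]
    rw [h3]
    refine h2.congr_deriv ?_
    have h4 : U (Φ r f) * U (Φ r f) = (Lam ^ 2) • (1 : M2) - (2 * Lam) • T f r
        + T f r * T f r := by
      rw [hUf, sub_mul, mul_sub, mul_sub]
      simp only [smul_mul_assoc, mul_smul_comm, one_mul, mul_one, smul_smul]
      module
    rw [h4]
    simp only [ent_apply, Matrix.add_apply, Matrix.sub_apply, Matrix.smul_apply, NF_apply,
      smul_eq_mul, hT, Matrix.one_apply]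
    split_ifs <;> ring
  · rw [hform, hsq]
    have h3 := T_nonneg hN (NF_symm Φ Lam) h00 f 0 (x 0) (x 1)
    rw [hT]
    linarith

end

end Vale.Agent.P207.N3
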